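import Mathlib

/-!
P082, degree two: a bounded cocycle vanishing on the diagonal is zero.

Let `φ` be an antisymmetric cocycle. The cocycle identity makes `φ · c` a Jordan derivation whose
defect is a sum of commutators; the argument of Herstein and Brešar shows that the defect kills all
commutators on both sides, so it is zero in a C⋆-algebra. Hence `φ` is a biderivation, the cocycle
identity makes its values central, and a bounded derivation with central values kills every
unitary.
-/

noncomputable section

namespace Vale.Agent.P082

variable {A : Type*} [CStarAlgebra A]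

/-- The vanishing of the Hochschild differential of a bilinear map. -/
def Cocycle (φ : A →L[ℂ] A →L[ℂ] A) : Prop :=
  ∀ a b c : A, a * φ b c - φ (a * b) c + φ a (b * c) - φ a b * c = 0

/-- A C⋆-algebra is semiprime. -/
theorem eq_zero_of_sandwich {t : A} (h : ∀ y, t * y * t = 0) : t = 0 := by
  have h2 : t * star t = 0 := CStarRing.star_mul_self_eq_zero_iff (t * star t) |>.1 (by
    rw [star_mul, star_star, ← mul_assoc, h (star t), zero_mul])
  exact (CStarRing.mul_star_self_eq_zero_iff t).1 h2

theorem eq_zero_of_add_self {t : A} (h : t + t = 0) : t = 0 := by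
  have h2 : (2 : ℂ) • t = 0 := by rw [two_smul]; exact h
  exact (smul_eq_zero.1 h2).resolve_left two_ne_zero

/-- If `p x q + q x p = 0` for all `x` then `p x q = 0`. -/
theorem eq_zero_of_symm {p q : A} (h : ∀ x, p * x * q + q * x * p = 0) (x : A) :
    p * x * q = 0 := by
  have R : ∀ z, p * z * q = -(q * z * p) := fun z => eq_neg_of_add_eq_zero_left (h z)
  refine eq_zero_of_sandwich fun y => eq_zero_of_add_self ?_
  have e1 : p * x * q * y * (p * x * q) = q * x * p * y * (q * x * p) := by
    rw [R x]; noncomm_ring
  have e2 : p * x * q * y * (p * x * q) = -(q * x * p * y * (q * x * p)) := by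
    calc p * x * q * y * (p * x * q) = -(p * x * (-(q * y * p))) * (x * q) := by noncomm_ring
      _ = -(p * (x * p * y) * q) * (x * q) := by rw [← R y]; noncomm_ring
      _ = q * x * p * y * (p * x * q) := by rw [R (x * p * y)]; noncomm_ring
      _ = _ := by rw [R x]; noncomm_ring
  nth_rewrite 2 [e2]
  rw [e1, add_neg_cancel]

theorem eq_zero_of_symm' {p q : A} (h : ∀ x, p * x * q + q * x * p = 0) (x : A) :
    q * x * p = 0 := by
  have := h x
  rwa [eq_zero_of_symm h x, zero_add] at this

section Antisymmetric

variable {φ : A →L[ℂ] A →L[ℂ] A} (hφ : Cocycle φ) (hanti : ∀ a b : A, φ b a = -φ a b)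

/-- The defect of the derivation rule in the first variable. -/
def defect (φ : A →L[ℂ] A →L[ℂ] A) (a b c : A) : A := φ (a * b) c - φ a c * b - a * φ b c

include hφ hanti

theorem apply_sq (a c : A) : φ (a * a) c = φ a c * a + a * φ a c := by
  have h0 : φ a a = 0 := eq_zero_of_add_self (add_eq_zero_iff_eq_neg.2 (hanti a a))
  have h1 := hφ a a c
  have h2 := hφ c a a
  have h3 := hφ a c a
  simp only [hanti a c, hanti a (c * a), hanti (a * a) c, hanti a (a * c), h0, zero_mul, mul_zero] at h1 h2 h3
  have e : φ (a * a) c - φ a c * a - a * φ a c + (φ (a * a) c - φ a c * a - a * φ a c) = 0 := by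
    linear_combination (norm := noncomm_ring) -h1 - h2 + h3
  have := eq_zero_of_add_self e
  linear_combination (norm := noncomm_ring) this

theorem jordan (a b c : A) :
    φ (a * b) c + φ (b * a) c = φ a c * b + a * φ b c + (φ b c * a + b * φ a c) := by
  have h := apply_sq hφ hanti (a + b) c
  simp only [add_mul, mul_add, map_add, _root_.add_apply,
    apply_sq hφ hanti a c, apply_sq hφ hanti b c] at h
  linear_combination (norm := noncomm_ring) h

theorem defect_swap (a b c : A) : defect φ b a c = -defect φ a b c := by
  rw [defect, defect]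
  linear_combination (norm := noncomm_ring) jordan hφ hanti a b c

theorem apply_aba (a b c : A) :
    φ (a * b * a) c = φ a c * b * a + a * φ b c * a + a * b * φ a c := by
  have h1 := jordan hφ hanti a (a * b + b * a) c
  have h2 := jordan hφ hanti (a * a) b c
  have e : a * (a * b + b * a) + (a * b + b * a) * a =
      a * a * b + b * (a * a) + (a * b * a + a * b * a) := by noncomm_ring
  have h3 := congrArg (fun t => φ t c) e
  simp only [map_add, _root_.add_apply] at h1 h3
  rw [apply_sq hφ hanti a c] at h2
  rw [jordan hφ hanti a b c] at h1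
  have e2 : φ (a * b * a) c - (φ a c * b * a + a * φ b c * a + a * b * φ a c) +
      (φ (a * b * a) c - (φ a c * b * a + a * φ b c * a + a * b * φ a c)) = 0 := by
    linear_combination (norm := noncomm_ring) h1 - h2 - h3
  exact sub_eq_zero.1 (eq_zero_of_add_self e2)

theorem apply_triple (a b d c : A) :
    φ (a * b * d) c + φ (d * b * a) c = φ a c * b * d + a * φ b c * d + a * b * φ d c +
      (φ d c * b * a + d * φ b c * a + d * b * φ a c) := by
  have h := apply_aba hφ hanti (a + d) b c
  simp only [add_mul, mul_add, map_add, _root_.add_apply,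
    apply_aba hφ hanti a b c, apply_aba hφ hanti d b c] at h
  linear_combination (norm := noncomm_ring) h

theorem defect_symm (a b c x : A) :
    defect φ a b c * x * (a * b - b * a) + (a * b - b * a) * x * defect φ a b c = 0 := by
  have h1 := apply_triple hφ hanti (a * b) x (b * a) c
  have h2 := apply_aba hφ hanti a (b * x * b) c
  have h3 := apply_aba hφ hanti b (a * x * a) c
  rw [apply_aba hφ hanti b x c] at h2
  rw [apply_aba hφ hanti a x c] at h3
  have e1 : φ (a * b * x * (b * a)) c = φ (a * (b * x * b) * a) c := by
    congr 2; noncomm_ring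
  have e2 : φ (b * a * x * (a * b)) c = φ (b * (a * x * a) * b) c := by
    congr 2; noncomm_ring
  have hs := defect_swap hφ hanti a b c
  simp only [defect] at hs ⊢
  linear_combination (norm := noncomm_ring)
    h1 - h2 - h3 - e1 - e2 + hs * x * (a * b) + (a * b) * x * hs

theorem defect_mul_commutator (a b c d e x : A) :
    defect φ a b c * x * (d * e - e * d) = 0 := by
  have h0 : ∀ a b x, defect φ a b c * x * (a * b - b * a) = 0 := fun a b =>
    eq_zero_of_symm (defect_symm hφ hanti a b c)
  have h0' : ∀ a b x, (a * b - b * a) * x * defect φ a b c = 0 := fun a b =>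
    eq_zero_of_symm' (defect_symm hφ hanti a b c)
  have hl : ∀ a a' b, defect φ (a + a') b c = defect φ a b c + defect φ a' b c := fun a a' b => by
    simp only [defect, map_add, _root_.add_apply, add_mul]; abel
  have hr : ∀ a b b', defect φ a (b + b') c = defect φ a b c + defect φ a b' c := fun a b b' => by
    simp only [defect, map_add, _root_.add_apply, mul_add]; abel
  have h1 : ∀ a b d x, defect φ a b c * x * (d * b - b * d) = 0 := fun a b d x => by
    refine eq_zero_of_sandwich fun y => ?_
    have hlin := h0 (a + d) b x
    rw [hl] at hlin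
    linear_combination (norm := noncomm_ring)
      defect φ a b c * x * (d * b - b * d) * y * hlin
        - defect φ a b c * x * (d * b - b * d) * y * h0 a b x
        - defect φ a b c * x * (d * b - b * d) * y * h0 d b x
        - (defect φ a b c * x) * h0' d b y * (x * (a * b - b * a))
  have h1' : ∀ a b d x, (d * b - b * d) * x * defect φ a b c = 0 := fun a b d x => by
    refine eq_zero_of_sandwich fun y => ?_
    linear_combination (norm := noncomm_ring)
      ((d * b - b * d) * x) * h1 a b d y * (x * defect φ a b c)
  refine eq_zero_of_sandwich fun y => ?_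
  have hlin := h1 a (b + e) d x
  rw [hr] at hlin
  linear_combination (norm := noncomm_ring)
    defect φ a b c * x * (d * e - e * d) * y * hlin
      - defect φ a b c * x * (d * e - e * d) * y * h1 a b d x
      - defect φ a b c * x * (d * e - e * d) * y * h1 a e d x
      - (defect φ a b c * x) * h1' a e d y * (x * (d * b - b * d))

theorem defect_eq (a b c : A) :
    defect φ a b c + defect φ a b c =
      (c * φ a b - φ a b * c) + (φ b c * a - a * φ b c) + (b * φ a c - φ a c * b) := by
  have h1 := hφ a b c
  have h2 := hφ c a b
  have h3 := hφ b c a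
  simp only [hanti (a * b) c, hanti (b * c) a, hanti (c * a) b, hanti a c] at h1 h2 h3
  rw [defect]
  linear_combination (norm := noncomm_ring) -h1 - h2 + h3

theorem defect_eq_zero (a b c : A) : defect φ a b c = 0 := by
  refine eq_zero_of_sandwich fun y => eq_zero_of_add_self ?_
  rw [← mul_add, defect_eq hφ hanti a b c]
  have h1 := defect_mul_commutator hφ hanti a b c c (φ a b) y
  have h2 := defect_mul_commutator hφ hanti a b c (φ b c) a y
  have h3 := defect_mul_commutator hφ hanti a b c b (φ a c) y
  linear_combination (norm := noncomm_ring) h1 + h2 + h3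

theorem leibniz (a b c : A) : φ (a * b) c = φ a c * b + a * φ b c := by
  have := defect_eq_zero hφ hanti a b c
  rw [defect] at this
  linear_combination (norm := noncomm_ring) this

theorem central (a b c : A) : b * φ a c = φ a c * b := by
  have h := hφ a b c
  rw [hanti (b * c) a, leibniz hφ hanti a b c, leibniz hφ hanti b c a, hanti a b, hanti a c] at h
  linear_combination (norm := noncomm_ring) h

theorem apply_pow (u c : A) : ∀ n : ℕ, φ (u ^ (n + 1)) c = (n + 1) • (u ^ n * φ u c)
  | 0 => by simp
  | n + 1 => by
    rw [pow_succ u (n + 1), leibniz hφ hanti, apply_pow u c n, smul_mul_assoc, mul_assoc,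
      ← central hφ hanti u u c, ← mul_assoc, ← pow_succ, succ_nsmul _ (n + 1)]

theorem apply_unitary [Nontrivial A] {u : A} (hu : u ∈ unitary A) (c : A) : φ u c = 0 := by
  have key : ∀ n : ℕ, ((n : ℝ) + 1) * ‖φ u c‖ ≤ ‖φ‖ * ‖c‖ := fun n => by
    have h1 : φ (u ^ (n + 1)) c = ((n + 1 : ℕ) : ℂ) • (u ^ n * φ u c) := by
      rw [apply_pow hφ hanti u c n, Nat.cast_smul_eq_nsmul]
    have h2 := φ.le_opNorm₂ (u ^ (n + 1)) c
    rw [h1, norm_smul, CStarRing.norm_mem_unitary_mul _ (pow_mem hu n), Complex.norm_natCast,
      CStarRing.norm_of_mem_unitary (pow_mem hu (n + 1)), mul_one] at h2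
    simpa using h2
  by_contra hne
  have hpos : 0 < ‖φ u c‖ := norm_pos_iff.2 hne
  obtain ⟨n, hn⟩ := exists_nat_gt (‖φ‖ * ‖c‖ / ‖φ u c‖)
  rw [div_lt_iff₀ hpos] at hn
  linarith [key n]

theorem eq_zero_of_antisymm : φ = 0 := by
  rcases subsingleton_or_nontrivial A with hA | hA
  · exact ContinuousLinearMap.ext fun a => ContinuousLinearMap.ext fun b => Subsingleton.elim _ _
  refine ContinuousLinearMap.ext fun a => ContinuousLinearMap.ext fun c => ?_
  have ha : a ∈ Submodule.span ℂ (unitary A : Set A) := by
    rw [CStarAlgebra.span_unitary]; exact Submodule.mem_top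
  simp only [_root_.zero_apply]
  induction ha using Submodule.span_induction with
  | mem u hu => exact apply_unitary hφ hanti hu c
  | zero => simp
  | add x y _ _ hx hy => simp [hx, hy]
  | smul r x _ hx => simp [hx]

end Antisymmetric

/-- A bilinear map vanishing at `(a, a)` for self-adjoint `a` is antisymmetric. -/
theorem antisymm_of_diag {φ : A →L[ℂ] A →L[ℂ] A} (h : ∀ a, IsSelfAdjoint a → φ a a = 0) (a b : A) :
    φ b a = -φ a b := by
  have hsa : ∀ x y, IsSelfAdjoint x → IsSelfAdjoint y → φ y x = -φ x y := fun x y hx hy => by
    have e := h (x + y) (hx.add hy)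
    simp only [map_add, _root_.add_apply, h x hx, h y hy] at e
    linear_combination (norm := noncomm_ring) e
  have hr := (realPart a).2
  have hi := (imaginaryPart a).2
  have hr' := (realPart b).2
  have hi' := (imaginaryPart b).2
  rw [← realPart_add_I_smul_imaginaryPart a, ← realPart_add_I_smul_imaginaryPart b]
  simp only [map_add, map_smul, _root_.add_apply, _root_.smul_apply, hsa _ _ hr hr', hsa _ _ hr hi',
    hsa _ _ hi hr', hsa _ _ hi hi']
  module

/-- A cocycle is the coboundary of `g` as soon as it agrees with it on the diagonal. -/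
theorem eq_coboundary {φ : A →L[ℂ] A →L[ℂ] A} (hφ : Cocycle φ) (g : A →L[ℂ] A)
    (h : ∀ a, IsSelfAdjoint a → φ a a = a * g a - g (a * a) + g a * a) (a b : A) :
    φ a b = a * g b - g (a * b) + g a * b := by
  set ψ : A →L[ℂ] A →L[ℂ] A := φ - (((ContinuousLinearMap.mul ℂ A).flip.comp g).flip +
    (ContinuousLinearMap.mul ℂ A).comp g - (ContinuousLinearMap.compL ℂ A A A g).comp
      (ContinuousLinearMap.mul ℂ A)) with hψ
  have happ : ∀ x y, ψ x y = φ x y - (x * g y - g (x * y) + g x * y) := fun x y => by
    simp only [hψ, _root_.sub_apply, _root_.add_apply, ContinuousLinearMap.comp_apply,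
      ContinuousLinearMap.flip_apply, ContinuousLinearMap.mul_apply',
      ContinuousLinearMap.compL_apply]
    abel
  have hc : Cocycle ψ := fun x y z => by
    simp only [happ]
    have := hφ x y z
    rw [mul_assoc x y z]
    linear_combination (norm := noncomm_ring) this
  have h0 := eq_zero_of_antisymm hc (antisymm_of_diag fun x hx => by rw [happ, h x hx, sub_self])
  have := happ a b
  rw [h0] at this
  exact sub_eq_zero.1 (by simpa using this.symm)

end Vale.Agent.P082
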